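import Mathlib

/-!
The continuity theorem of Levy and Fernique in the space of distributions on an open subset of the
plane: the blocks of the proof.
-/

set_option autoImplicit false

namespace P153DL

open MeasureTheory Filter Topology Set TopologicalSpace

/-- Smooth functions supported in the compact set `K`. -/
abbrev DK (K : Compacts ℂ) : Type := ContDiffMapSupportedIn ℂ ℝ ⊤ K

/-- Test functions on `Ω`. -/
abbrev TF (Ω : Opens ℂ) : Type := TestFunction Ω ℝ ⊤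

/-- Distributions on `Ω`. -/
abbrev DP (Ω : Opens ℂ) : Type := Distribution Ω ℝ ⊤

/-- The `C^N` norm. -/
noncomputable def sn (K : Compacts ℂ) (N : ℕ) : Seminorm ℝ (DK K) :=
  ContDiffMapSupportedIn.supSeminorm ℝ ℂ ℝ ⊤ K N

/-- The inclusion of the functions supported in `K` into the test functions. -/
noncomputable def inc {Ω : Opens ℂ} {K : Compacts ℂ} (hK : (K : Set ℂ) ⊆ Ω) : DK K →L[ℝ] TF Ω :=
  TestFunction.ofSupportedInCLM ℝ hK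

/-- The distributions which are bounded by `C` times the `C^N` norm on `K`. -/
def Bd {Ω : Opens ℂ} {K : Compacts ℂ} (hK : (K : Set ℂ) ⊆ Ω) (N : ℕ) (C : ℝ) : Set (DP Ω) :=
  {T | ∀ φ : DK K, |T (inc hK φ)| ≤ C * sn K N φ}

/-- The distribution `T` is given by a bounded measurable function. -/
def Fn {Ω : Opens ℂ} (T : DP Ω) : Prop :=
  ∃ u : ℂ → ℝ, Measurable u ∧ (∃ M, ∀ z, |u z| ≤ M) ∧ ∀ φ : TF Ω, T φ = ∫ z, u z * φ z

/-- Compact sets of distributions. -/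
def CPT : Prop :=
  ∀ (Ω : Opens ℂ) (K : ℕ → Compacts ℂ) (hK : ∀ k, (K k : Set ℂ) ⊆ Ω),
    (∀ L : Compacts ℂ, (L : Set ℂ) ⊆ Ω → ∃ k, L ≤ K k) → ∀ (N : ℕ → ℕ) (C : ℕ → ℝ),
      IsCompact (⋂ k, Bd (hK k) (N k) (C k))

/-- Tight laws with the same one-dimensional marginals have the same integrals. -/
def UNQ : Prop :=
  ∀ (Ω : Opens ℂ) [MeasurableSpace (DP Ω)] [BorelSpace (DP Ω)] (ν ν' : Measure (DP Ω)),
    IsProbabilityMeasure ν → IsProbabilityMeasure ν' → IsTightMeasureSet {ν} →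
    IsTightMeasureSet {ν'} → (∀ φ : TF Ω, ν.map (fun T => T φ) = ν'.map (fun T => T φ)) →
    ∀ F : BoundedContinuousFunction (DP Ω) ℝ, ∫ T, F T ∂ν = ∫ T, F T ∂ν'

/-- The space of the smooth functions supported in `K` is a Baire space. -/
def BAI : Prop := ∀ K : Compacts ℂ, BaireSpace (DK K)

/-- The exponential `e^{2 π i ⟨m, z⟩ / l}`. -/
noncomputable def ex (l : ℝ) (m : Fin 2 → ℤ) (z : ℂ) : ℂ :=
  Complex.exp (2 * Real.pi * ((m 0 * z.re + m 1 * z.im) / l : ℝ) * Complex.I)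

/-- The size of a frequency. -/
def wt (m : Fin 2 → ℤ) : ℝ := 1 + |(m 0 : ℝ)| + |(m 1 : ℝ)|

/-- The identity of Parseval for bounded functions which vanish off a disc. -/
def PAR : Prop :=
  ∀ (R : ℝ), 0 < R → ∀ f g : ℂ → ℝ, Measurable f → Measurable g → (∃ M, ∀ z, |f z| ≤ M) →
    (∃ M, ∀ z, |g z| ≤ M) → (∀ z, R ≤ ‖z‖ → f z = 0) → (∀ z, R ≤ ‖z‖ → g z = 0) →
    HasSum (fun m : Fin 2 → ℤ =>
      (starRingEnd ℂ) (∫ z, ex (2 * R) m z * f z) * ∫ z, ex (2 * R) m z * g z)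
      ((2 * R) ^ 2 * ∫ z, f z * g z : ℝ)

/-- Decay of the Fourier coefficients. -/
def DEC : Prop :=
  ∀ (K : Compacts ℂ) (l : ℝ), 0 < l → ∀ N : ℕ, ∃ C : ℝ, ∀ (φ : DK K) (m : Fin 2 → ℤ),
    wt m ^ N * ‖∫ z, ex l m z * φ z‖ ≤ C * sn K N φ

/-- Growth of the norms of the localized exponentials. -/
def GRO : Prop :=
  ∀ (K : Compacts ℂ) (χ : DK K) (l : ℝ), 0 < l → ∃ c s : (Fin 2 → ℤ) → DK K,
    (∀ m z, c m z = χ z * (ex l m z).re) ∧ (∀ m z, s m z = χ z * (ex l m z).im) ∧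
    ∀ N : ℕ, ∃ C : ℝ, ∀ m, sn K N (c m) ≤ C * wt m ^ N ∧ sn K N (s m) ≤ C * wt m ^ N

/-- Nuclearity. -/
def NUC : Prop :=
  ∀ (Ω : Opens ℂ) (K : Compacts ℂ) (hK : (K : Set ℂ) ⊆ Ω), ∃ (L : Compacts ℂ)
    (hL : (L : Set ℂ) ⊆ Ω) (ι : Type) (_ : Countable ι) (φ : ι → DK L), ∀ N : ℕ,
    ∃ (a : ι → ℝ) (N' : ℕ) (C : ℝ), (∀ i, 0 ≤ a i) ∧
      (∀ s : Finset ι, ∑ i ∈ s, a i * sn L N (φ i) ≤ 1) ∧
      ∀ T : DP Ω, Fn T → ∀ r : ℝ, (∀ i, a i * |T (inc hL (φ i))| ≤ r) → T ∈ Bd hK N' (C * r)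

/-- Tightness on one compact set. -/
def TGT : Prop :=
  ∀ (Ω : Opens ℂ) [MeasurableSpace (DP Ω)] [BorelSpace (DP Ω)] (μ : ℕ → Measure (DP Ω)),
    (∀ n, IsProbabilityMeasure (μ n)) → (∀ n, ∀ᵐ T ∂μ n, Fn T) →
    (∀ φ : TF Ω, ∀ ε > 0, ∃ R : ℝ, ∀ n, (μ n).real {T | R ≤ |T φ|} ≤ ε) →
    ∀ (K : Compacts ℂ) (hK : (K : Set ℂ) ⊆ Ω), ∀ ε > 0, ∃ (N : ℕ) (C : ℝ), ∀ n,
      (μ n).real (Bd hK N C)ᶜ ≤ ε

/-- **The continuity theorem.** If the laws `μ n` of random bounded functions have convergent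
one-dimensional marginals, the sequence is tight, there is a tight law with the limit marginals,
and `μ n` converges weakly to every such law. -/
def LF : Prop :=
  ∀ (Ω : Opens ℂ) [MeasurableSpace (DP Ω)] [BorelSpace (DP Ω)] (γ : TF Ω → Measure ℝ)
    (μ : ℕ → Measure (DP Ω)), (∀ φ, IsProbabilityMeasure (γ φ)) →
    (∀ n, IsProbabilityMeasure (μ n)) → (∀ n, ∀ᵐ T ∂μ n, Fn T) →
    (∀ (φ : TF Ω) (F : ℝ → ℝ), Continuous F → (∃ M, ∀ x, |F x| ≤ M) →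
      Tendsto (fun n => ∫ T, F (T φ) ∂μ n) atTop (𝓝 (∫ x, F x ∂γ φ))) →
    IsTightMeasureSet (range μ) ∧
    (∃ ν : Measure (DP Ω), IsProbabilityMeasure ν ∧ IsTightMeasureSet {ν} ∧
      ∀ φ : TF Ω, ν.map (fun T => T φ) = γ φ) ∧
    ∀ ν : Measure (DP Ω), IsProbabilityMeasure ν → IsTightMeasureSet {ν} →
      (∀ φ : TF Ω, ν.map (fun T => T φ) = γ φ) →
      ∀ F : DP Ω → ℝ, Continuous F → (∃ M, ∀ T, |F T| ≤ M) →
        Tendsto (fun n => ∫ T, F T ∂μ n) atTop (𝓝 (∫ T, F T ∂ν))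

end P153DL
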